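import Crest.Agent.X262.Cvx.Cone0

/-!
# X262/Cvx/Cone1 (helper62): rational cones in `ι → ℝ`
-/

set_option autoImplicit false
set_option linter.unusedSectionVars false

open Finset

namespace Crest.Agent.X262.Cvx

variable {ι κ : Type*} [Fintype ι] [Fintype κ]

/-- a point with rational coordinates -/
def IsRat (x : ι → ℝ) : Prop := ∀ i, ∃ q : ℚ, x i = q

/-- a rational point as a real point -/
def qc (q : ι → ℚ) : ι → ℝ := fun i => (q i : ℝ)

@[simp] theorem qc_apply (q : ι → ℚ) (i : ι) : qc q i = (q i : ℝ) := rfl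

theorem isRat_qc (q : ι → ℚ) : IsRat (qc q) := fun i => ⟨q i, rfl⟩

theorem isRat_zc (z : ι → ℤ) : IsRat (zc ℝ z) := fun i => ⟨z i, by simp⟩

theorem IsRat.exists_qc {x : ι → ℝ} (h : IsRat x) : ∃ q : ι → ℚ, x = qc q := by
  choose q hq using h
  exact ⟨q, funext hq⟩

theorem IsRat.add {x y : ι → ℝ} (hx : IsRat x) (hy : IsRat y) : IsRat (x + y) := fun i => by
  obtain ⟨p, hp⟩ := hx i
  obtain ⟨q, hq⟩ := hy i
  exact ⟨p + q, by simp [hp, hq]⟩

theorem IsRat.sub {x y : ι → ℝ} (hx : IsRat x) (hy : IsRat y) : IsRat (x - y) := fun i => by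
  obtain ⟨p, hp⟩ := hx i
  obtain ⟨q, hq⟩ := hy i
  exact ⟨p - q, by simp [hp, hq]⟩

theorem IsRat.smul {x : ι → ℝ} (hx : IsRat x) (c : ℚ) : IsRat ((c : ℝ) • x) := fun i => by
  obtain ⟨p, hp⟩ := hx i
  exact ⟨c * p, by simp [hp]⟩

theorem isRat_zero : IsRat (0 : ι → ℝ) := fun _ => ⟨0, by simp⟩

theorem IsRat.sum {α : Type*} (s : Finset α) {x : α → ι → ℝ} (h : ∀ a ∈ s, IsRat (x a)) :
    IsRat (∑ a ∈ s, x a) :=
  Finset.sum_induction _ IsRat (fun _ _ => IsRat.add) isRat_zero h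

/-- common denominator -/
theorem exists_den {α : Type*} [Finite α] (q : α → ℚ) :
    ∃ D : ℕ, 0 < D ∧ ∃ z : α → ℤ, ∀ a, (D : ℚ) * q a = z a := by
  have := Fintype.ofFinite α
  refine ⟨∏ a, (q a).den, prod_pos fun a _ => (q a).den_pos, ?_⟩
  have : ∀ a, ∃ z : ℤ, ((∏ a, (q a).den : ℕ) : ℚ) * q a = z := fun a => by
    obtain ⟨c, hc⟩ := dvd_prod_of_mem (fun a => (q a).den) (mem_univ a)
    refine ⟨c * (q a).num, ?_⟩
    rw [hc]
    push_cast
    rw [mul_right_comm, Rat.den_mul_eq_num, mul_comm]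
  choose z hz using this
  exact ⟨z, hz⟩

theorem IsRat.exists_den {x : ι → ℝ} (h : IsRat x) :
    ∃ D : ℕ, 0 < D ∧ ∃ z : ι → ℤ, (D : ℝ) • x = zc ℝ z := by
  obtain ⟨q, rfl⟩ := h.exists_qc
  obtain ⟨D, hD, z, hz⟩ := Cvx.exists_den q
  refine ⟨D, hD, z, funext fun i => ?_⟩
  have := congrArg (fun t : ℚ => (t : ℝ)) (hz i)
  simpa using this

/-- a rational affine function -/
def RAff (l : (ι → ℝ) → ℝ) : Prop :=
  ∃ (c : ℚ) (a : ι → ℚ), ∀ x, l x = c + ∑ i, (a i : ℝ) * x i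

/-- a rational linear function -/
def RLin (l : (ι → ℝ) → ℝ) : Prop := ∃ a : ι → ℚ, ∀ x, l x = ∑ i, (a i : ℝ) * x i

theorem RLin.rAff {l : (ι → ℝ) → ℝ} (h : RLin l) : RAff l := by
  obtain ⟨a, ha⟩ := h
  exact ⟨0, a, fun x => by simp [ha]⟩

theorem rLin_coord (i : ι) : RLin fun x : ι → ℝ => x i := by
  classical
  refine ⟨Pi.single i 1, fun x => ?_⟩
  rw [sum_eq_single i] <;> simp +contextual

theorem rLin_zero : RLin fun _ : ι → ℝ => (0 : ℝ) := ⟨0, fun x => by simp⟩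

theorem RLin.add {l m : (ι → ℝ) → ℝ} (hl : RLin l) (hm : RLin m) : RLin fun x => l x + m x := by
  obtain ⟨a, ha⟩ := hl
  obtain ⟨b, hb⟩ := hm
  exact ⟨a + b, fun x => by simp [ha, hb, add_mul, sum_add_distrib]⟩

theorem RLin.const_mul {l : (ι → ℝ) → ℝ} (hl : RLin l) (c : ℚ) : RLin fun x => (c : ℝ) * l x := by
  obtain ⟨a, ha⟩ := hl
  exact ⟨c • a, fun x => by simp [ha, mul_sum, mul_assoc]⟩

theorem RLin.neg {l : (ι → ℝ) → ℝ} (hl : RLin l) : RLin fun x => -l x := by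
  simpa using hl.const_mul (-1)

theorem RLin.sub {l m : (ι → ℝ) → ℝ} (hl : RLin l) (hm : RLin m) : RLin fun x => l x - m x := by
  simpa [sub_eq_add_neg] using hl.add hm.neg

theorem RLin.sum {α : Type*} (s : Finset α) {l : α → (ι → ℝ) → ℝ} (h : ∀ a ∈ s, RLin (l a)) :
    RLin fun x => ∑ a ∈ s, l a x := by
  classical
  induction s using Finset.induction_on with
  | empty => simpa using rLin_zero
  | insert a s ha ih =>
    simpa [sum_insert ha] using (h a (mem_insert_self _ _)).add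
      (ih fun b hb => h b (mem_insert_of_mem hb))

theorem rLin_dot (a : ι → ℤ) : RLin fun x : ι → ℝ => dot a x := ⟨fun i => a i, fun x => by simp [dot]⟩

theorem RLin.comp {l : (κ → ℝ) → ℝ} (hl : RLin l) {f : (ι → ℝ) → κ → ℝ}
    (hf : ∀ k, RLin fun x => f x k) : RLin fun x => l (f x) := by
  obtain ⟨a, ha⟩ := hl
  simpa [ha] using RLin.sum univ fun k _ => (hf k).const_mul (a k)

theorem RLin.map_add {l : (ι → ℝ) → ℝ} (hl : RLin l) (x y : ι → ℝ) : l (x + y) = l x + l y := by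
  obtain ⟨a, ha⟩ := hl
  simp [ha, mul_add, sum_add_distrib]

theorem RLin.map_smul {l : (ι → ℝ) → ℝ} (hl : RLin l) (t : ℝ) (x : ι → ℝ) :
    l (t • x) = t * l x := by
  obtain ⟨a, ha⟩ := hl
  simp [ha, mul_sum, mul_left_comm]

theorem RLin.map_zero {l : (ι → ℝ) → ℝ} (hl : RLin l) : l 0 = 0 := by
  simpa using hl.map_smul 0 0

theorem rAff_const (c : ℚ) : RAff fun _ : ι → ℝ => (c : ℝ) := ⟨c, 0, fun x => by simp⟩

theorem rAff_coord (i : ι) : RAff fun x : ι → ℝ => x i := (rLin_coord i).rAff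

theorem RAff.add {l m : (ι → ℝ) → ℝ} (hl : RAff l) (hm : RAff m) : RAff fun x => l x + m x := by
  obtain ⟨c, a, ha⟩ := hl
  obtain ⟨d, b, hb⟩ := hm
  exact ⟨c + d, a + b, fun x => by simp [ha, hb, add_mul, sum_add_distrib]; ring⟩

theorem RAff.const_mul {l : (ι → ℝ) → ℝ} (hl : RAff l) (c : ℚ) : RAff fun x => (c : ℝ) * l x := by
  obtain ⟨d, a, ha⟩ := hl
  exact ⟨c * d, c • a, fun x => by simp [ha, mul_sum, mul_assoc, mul_add]⟩

theorem RAff.neg {l : (ι → ℝ) → ℝ} (hl : RAff l) : RAff fun x => -l x := by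
  simpa using hl.const_mul (-1)

theorem RAff.sub {l m : (ι → ℝ) → ℝ} (hl : RAff l) (hm : RAff m) : RAff fun x => l x - m x := by
  simpa [sub_eq_add_neg] using hl.add hm.neg

theorem RAff.sum {α : Type*} (s : Finset α) {l : α → (ι → ℝ) → ℝ} (h : ∀ a ∈ s, RAff (l a)) :
    RAff fun x => ∑ a ∈ s, l a x := by
  classical
  induction s using Finset.induction_on with
  | empty => simpa using rAff_const (ι := ι) 0
  | insert a s ha ih =>
    simpa [sum_insert ha] using (h a (mem_insert_self _ _)).add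
      (ih fun b hb => h b (mem_insert_of_mem hb))

theorem RAff.comp {l : (κ → ℝ) → ℝ} (hl : RAff l) {f : (ι → ℝ) → κ → ℝ}
    (hf : ∀ k, RAff fun x => f x k) : RAff fun x => l (f x) := by
  obtain ⟨c, a, ha⟩ := hl
  simpa [ha] using (rAff_const c).add (RAff.sum univ fun k _ => (hf k).const_mul (a k))

theorem RAff.isRat {l : (ι → ℝ) → ℝ} (hl : RAff l) {x : ι → ℝ} (hx : IsRat x) :
    ∃ q : ℚ, l x = q := by
  obtain ⟨c, a, ha⟩ := hl
  obtain ⟨q, rfl⟩ := hx.exists_qc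
  exact ⟨c + ∑ i, a i * q i, by simp [ha]⟩

theorem RAff.continuous {l : (ι → ℝ) → ℝ} (hl : RAff l) : Continuous l := by
  obtain ⟨c, a, ha⟩ := hl
  rw [funext ha]
  fun_prop

theorem RAff.map_comb {l : (ι → ℝ) → ℝ} (hl : RAff l) {α : Type*} (s : Finset α) (t : α → ℝ)
    (x : α → ι → ℝ) (ht : ∑ a ∈ s, t a = 1) :
    l (∑ a ∈ s, t a • x a) = ∑ a ∈ s, t a * l (x a) := by
  obtain ⟨c, a, ha⟩ := hl
  simp only [ha, mul_add, sum_add_distrib, ← sum_mul, ht, one_mul, Finset.sum_apply, Pi.smul_apply,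
    smul_eq_mul, mul_sum]
  congr 1
  rw [sum_comm]
  exact sum_congr rfl fun _ _ => sum_congr rfl fun _ _ => by ring

/-- a positive multiple of a rational linear function is integral -/
theorem RLin.exists_dot {l : (ι → ℝ) → ℝ} (hl : RLin l) :
    ∃ D : ℕ, 0 < D ∧ ∃ z : ι → ℤ, ∀ x, dot z x = D * l x := by
  obtain ⟨a, ha⟩ := hl
  obtain ⟨D, hD, z, hz⟩ := exists_den a
  refine ⟨D, hD, z, fun x => ?_⟩
  rw [ha, dot, mul_sum]
  refine sum_congr rfl fun i _ => ?_
  have := congrArg (fun t : ℚ => (t : ℝ)) (hz i)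
  simp only [Rat.cast_mul, Rat.cast_natCast, Rat.cast_intCast] at this
  rw [← this, mul_assoc]

/-- a rational polyhedral cone -/
def RCone (C : Set (ι → ℝ)) : Prop := ∃ G : Finset (ι → ℤ), C = ConeV ℝ G

theorem rCone_ConeV (G : Finset (ι → ℤ)) : RCone (ConeV ℝ G) := ⟨G, rfl⟩

theorem rCone_ConeH (A : Finset (ι → ℤ)) : RCone (ConeH ℝ A) :=
  (exists_V A).imp fun _ h => h ℝ

theorem RCone.exists_H {C : Set (ι → ℝ)} (h : RCone C) : ∃ A : Finset (ι → ℤ), C = ConeH ℝ A := by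
  obtain ⟨G, rfl⟩ := h
  exact (Cvx.exists_H G).imp fun _ h => h ℝ

/-- cones cut out by finitely many rational linear inequalities -/
theorem rCone_of_ineq {α : Type*} [Finite α] {l : α → (ι → ℝ) → ℝ} (hl : ∀ a, RLin (l a)) :
    RCone {x | ∀ a, 0 ≤ l a x} := by
  classical
  have := Fintype.ofFinite α
  choose D hD z hz using fun a => (hl a).exists_dot
  convert rCone_ConeH (univ.image z)
  ext x
  simp only [Set.mem_ofPred_eq, ConeH, mem_image, mem_univ, true_and, forall_exists_index,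
    forall_apply_eq_imp_iff, hz]
  exact forall_congr' fun a => (mul_nonneg_iff_of_pos_left (by exact_mod_cast hD a)).symm

theorem RCone.exists_ineq {C : Set (ι → ℝ)} (h : RCone C) :
    ∃ (n : ℕ) (l : Fin n → (ι → ℝ) → ℝ), (∀ a, RLin (l a)) ∧ C = {x | ∀ a, 0 ≤ l a x} := by
  obtain ⟨A, rfl⟩ := h.exists_H
  refine ⟨_, fun j x => dot (A.equivFin.symm j).1 x, fun _ => rLin_dot _, ?_⟩
  ext x
  exact ⟨fun h j => h _ (A.equivFin.symm j).2, fun h a ha => by simpa using h (A.equivFin ⟨a, ha⟩)⟩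

theorem RCone.zero_mem {C : Set (ι → ℝ)} (h : RCone C) : (0 : ι → ℝ) ∈ C := by
  obtain ⟨G, rfl⟩ := h; exact zero_mem_ConeV G

theorem RCone.add_mem {C : Set (ι → ℝ)} (h : RCone C) {x y : ι → ℝ} (hx : x ∈ C) (hy : y ∈ C) :
    x + y ∈ C := by
  obtain ⟨G, rfl⟩ := h; exact add_mem_ConeV hx hy

theorem RCone.smul_mem {C : Set (ι → ℝ)} (h : RCone C) {x : ι → ℝ} (hx : x ∈ C) {c : ℝ}
    (hc : 0 ≤ c) : c • x ∈ C := by
  obtain ⟨G, rfl⟩ := h; exact smul_mem_ConeV hx hc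

theorem RCone.sum_mem {C : Set (ι → ℝ)} (h : RCone C) {α : Type*} (s : Finset α)
    {x : α → ι → ℝ} (hx : ∀ a ∈ s, x a ∈ C) : ∑ a ∈ s, x a ∈ C := by
  obtain ⟨G, rfl⟩ := h; exact sum_mem_ConeV s hx

theorem RCone.convex {C : Set (ι → ℝ)} (h : RCone C) : Convex ℝ C :=
  fun _ hx _ hy _ _ ha hb _ => h.add_mem (h.smul_mem hx ha) (h.smul_mem hy hb)

theorem RCone.isClosed {C : Set (ι → ℝ)} (h : RCone C) : IsClosed C := by
  obtain ⟨n, l, hl, rfl⟩ := h.exists_ineq
  rw [Set.ofPred_forall]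
  exact isClosed_iInter fun a => isClosed_le continuous_const (hl a).rAff.continuous

/-- the cone generated by finitely many rational points -/
theorem rCone_of_gen {α : Type*} [Fintype α] {v : α → ι → ℝ} (hv : ∀ a, IsRat (v a)) :
    RCone {x | ∃ t : α → ℝ, (∀ a, 0 ≤ t a) ∧ x = ∑ a, t a • v a} := by
  classical
  choose D hD z hz using fun a => (hv a).exists_den
  refine ⟨univ.image z, Set.Subset.antisymm ?_ (ConeV_subset ?_ ?_ ?_ ?_)⟩
  · rintro _ ⟨t, ht, rfl⟩
    refine sum_mem_ConeV _ fun a _ => ?_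
    have hD' : (0 : ℝ) < D a := by exact_mod_cast hD a
    have : t a • v a = (t a / D a) • zc ℝ (z a) := by
      rw [← hz, smul_smul, div_mul_cancel₀ _ hD'.ne']
    rw [this]
    exact smul_mem_ConeV (gen_mem_ConeV (mem_image_of_mem _ (mem_univ a)))
      (div_nonneg (ht a) hD'.le)
  · exact ⟨0, by simp, by simp⟩
  · rintro _ ⟨t, ht, rfl⟩ _ ⟨u, hu, rfl⟩
    exact ⟨t + u, fun g => add_nonneg (ht g) (hu g), by simp [add_smul, sum_add_distrib]⟩
  · rintro _ ⟨t, ht, rfl⟩ c hc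
    exact ⟨c • t, fun g => mul_nonneg hc (ht g), by simp [smul_sum, smul_smul]⟩
  · intro g hg
    obtain ⟨a, -, rfl⟩ := mem_image.1 hg
    refine ⟨Pi.single a (D a), fun b => ?_, ?_⟩
    · rw [Pi.single_apply]; split_ifs <;> simp
    · rw [sum_eq_single a] <;> simp +contextual [hz]

/-- generators as a family -/
theorem RCone.exists_gen {C : Set (ι → ℝ)} (h : RCone C) :
    ∃ (n : ℕ) (g : Fin n → ι → ℤ),
      C = {x | ∃ t : Fin n → ℝ, (∀ a, 0 ≤ t a) ∧ x = ∑ a, t a • zc ℝ (g a)} := by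
  classical
  obtain ⟨G, rfl⟩ := h
  refine ⟨_, fun j => (G.equivFin.symm j).1, Set.Subset.antisymm ?_ ?_⟩
  · rintro _ ⟨t, ht, rfl⟩
    refine ⟨fun j => t (G.equivFin.symm j).1, fun _ => ht _, ?_⟩
    rw [← sum_coe_sort G]
    exact (Equiv.sum_comp G.equivFin.symm fun g : G => t g • zc ℝ g.1).symm
  · rintro _ ⟨t, ht, rfl⟩
    exact sum_mem_ConeV _ fun a _ => smul_mem_ConeV (gen_mem_ConeV (G.equivFin.symm a).2) (ht a)

theorem rCone_univ : RCone (Set.univ : Set (ι → ℝ)) := by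
  simpa using rCone_of_ineq (ι := ι) (α := Empty) (l := fun a => a.elim) fun a => a.elim

theorem rCone_orthant : RCone {x : ι → ℝ | ∀ i, 0 ≤ x i} := rCone_of_ineq rLin_coord

theorem rCone_nonneg {l : (ι → ℝ) → ℝ} (hl : RLin l) : RCone {x | 0 ≤ l x} := by
  simpa using rCone_of_ineq (α := Unit) (l := fun _ => l) fun _ => hl

theorem RCone.iInter {α : Type*} [Finite α] {C : α → Set (ι → ℝ)} (h : ∀ a, RCone (C a)) :
    RCone (⋂ a, C a) := by
  choose n l hl e using fun a => (h a).exists_ineq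
  convert rCone_of_ineq (α := Σ a, Fin (n a)) (l := fun p => l p.1 p.2) fun p => hl p.1 p.2
  ext x
  simp only [Set.mem_iInter, e, Set.mem_ofPred_eq, Sigma.forall]

theorem RCone.inter {C D : Set (ι → ℝ)} (hC : RCone C) (hD : RCone D) : RCone (C ∩ D) := by
  rw [Set.inter_eq_iInter]
  exact RCone.iInter fun b => by cases b <;> assumption

theorem rCone_le {l m : (ι → ℝ) → ℝ} (hl : RLin l) (hm : RLin m) : RCone {x | l x ≤ m x} := by
  simpa [sub_nonneg] using rCone_nonneg (hm.sub hl)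

theorem rCone_eq {l m : (ι → ℝ) → ℝ} (hl : RLin l) (hm : RLin m) : RCone {x | l x = m x} := by
  convert (rCone_le hl hm).inter (rCone_le hm hl)
  ext x
  simp [le_antisymm_iff]

theorem RCone.preimage {C : Set (κ → ℝ)} (h : RCone C) {f : (ι → ℝ) → κ → ℝ}
    (hf : ∀ k, RLin fun x => f x k) : RCone (f ⁻¹' C) := by
  obtain ⟨n, l, hl, rfl⟩ := h.exists_ineq
  exact rCone_of_ineq fun a => (hl a).comp hf

theorem rlin_map_sum {f : (ι → ℝ) → κ → ℝ} (hf : ∀ k, RLin fun x => f x k) {α : Type*}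
    (s : Finset α) (t : α → ℝ) (x : α → ι → ℝ) :
    f (∑ a ∈ s, t a • x a) = ∑ a ∈ s, t a • f (x a) := by
  classical
  ext k
  induction s using Finset.induction_on with
  | empty => simpa using (hf k).map_zero
  | insert a s ha ih =>
    rw [sum_insert ha, sum_insert ha, (hf k).map_add, (hf k).map_smul, ih]
    simp

theorem RCone.image {C : Set (ι → ℝ)} (h : RCone C) {f : (ι → ℝ) → κ → ℝ}
    (hf : ∀ k, RLin fun x => f x k) : RCone (f '' C) := by
  obtain ⟨n, g, rfl⟩ := h.exists_gen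
  convert rCone_of_gen (v := fun a => f (zc ℝ (g a))) fun a k => (hf k).rAff.isRat (isRat_zc _)
  ext y
  constructor
  · rintro ⟨_, ⟨t, ht, rfl⟩, rfl⟩
    exact ⟨t, ht, rlin_map_sum hf _ _ _⟩
  · rintro ⟨t, ht, rfl⟩
    exact ⟨_, ⟨t, ht, rfl⟩, rlin_map_sum hf _ _ _⟩

/-- a rational point of the cone generated by integer vectors: a multiple is an `ℕ`-combination -/
theorem exists_nat_comb {α : Type*} [Fintype α] (g : α → ι → ℤ) {x : ι → ℝ} (hx : IsRat x)
    {t : α → ℝ} (ht : ∀ a, 0 ≤ t a) (e : x = ∑ a, t a • zc ℝ (g a)) :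
    ∃ m : ℕ, 0 < m ∧ ∃ c : α → ℕ, (m : ℝ) • x = zc ℝ (∑ a, c a • g a) := by
  classical
  obtain ⟨A, hA⟩ := exists_H (univ.image g)
  obtain ⟨q, rfl⟩ := hx.exists_qc
  have h1 : qc q ∈ ConeH ℝ A := by
    rw [← hA, e]
    exact sum_mem_ConeV _ fun a _ =>
      smul_mem_ConeV (gen_mem_ConeV (mem_image_of_mem _ (mem_univ a))) (ht a)
  have h2 : q ∈ ConeV ℚ (univ.image g) := by
    rw [hA]
    intro a ha
    have := h1 a ha
    have e2 : dot a (qc q) = ((dot a q : ℚ) : ℝ) := by simp [dot]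
    rw [e2] at this
    exact_mod_cast this
  have h3 : ConeV ℚ (univ.image g) ⊆ {q : ι → ℚ | ∃ m : ℕ, 0 < m ∧ ∃ c : α → ℕ,
      (m : ℚ) • q = zc ℚ (∑ a, c a • g a)} := by
    refine ConeV_subset ⟨1, one_pos, 0, by simp [zc_zero]⟩ ?_ ?_ ?_
    · rintro x ⟨m, hm, c, hc⟩ y ⟨m', hm', c', hc'⟩
      refine ⟨m * m', mul_pos hm hm', m' • c + m • c', ?_⟩
      have : ∑ a, (m' • c + m • c') a • g a = m' • ∑ a, c a • g a + m • ∑ a, c' a • g a := by
        simp only [Pi.add_apply, Pi.smul_apply, smul_eq_mul, add_smul, mul_smul, sum_add_distrib,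
          smul_sum]
      rw [this, zc_add, zc_nsmul, zc_nsmul, ← hc, ← hc', smul_smul, smul_smul, smul_add]
      push_cast
      rw [mul_comm (m' : ℚ)]
    · rintro x ⟨m, hm, c, hc⟩ r hr
      refine ⟨m * r.den, mul_pos hm r.den_pos, r.num.toNat • c, ?_⟩
      have : ∑ a, (r.num.toNat • c) a • g a = r.num.toNat • ∑ a, c a • g a := by
        simp only [Pi.smul_apply, smul_eq_mul, mul_smul, smul_sum]
      rw [this, zc_nsmul, ← hc, smul_smul, smul_smul]
      congr 1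
      have h0 : ((r.num.toNat : ℕ) : ℚ) = (r.num : ℚ) := by
        exact_mod_cast Int.toNat_of_nonneg (Rat.num_nonneg.2 hr)
      rw [h0]
      push_cast
      rw [mul_assoc, Rat.den_mul_eq_num, mul_comm]
    · intro z hz
      obtain ⟨a, -, rfl⟩ := mem_image.1 hz
      refine ⟨1, one_pos, Pi.single a 1, ?_⟩
      rw [sum_eq_single a] <;> simp +contextual
  obtain ⟨m, hm, c, hc⟩ := h3 h2
  refine ⟨m, hm, c, funext fun i => ?_⟩
  have := congrArg (fun t : ℚ => (t : ℝ)) (congrFun hc i)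
  simpa using this

/-- **Gordan's lemma**: the integral points of a rational cone -/
theorem RCone.gordan {C : Set (ι → ℝ)} (h : RCone C) (S : AddSubmonoid (ι → ℤ))
    (hS : ∀ z, z ∈ S ↔ zc ℝ z ∈ C) : S.FG := by
  obtain ⟨A, rfl⟩ := h.exists_H
  refine gordan_H A S fun z => (hS z).trans (forall₂_congr fun a _ => ?_)
  rw [dot_zc]
  exact Int.cast_nonneg_iff

/-- a natural vector as a real point -/
def nc (z : ι → ℕ) : ι → ℝ := fun i => (z i : ℝ)

@[simp] theorem nc_apply (z : ι → ℕ) (i : ι) : nc z i = (z i : ℝ) := rfl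

theorem isRat_nc (z : ι → ℕ) : IsRat (nc z) := fun i => ⟨z i, by simp⟩

/-- **Gordan's lemma** for natural points -/
theorem RCone.gordan_nat {C : Set (ι → ℝ)} (h : RCone C) (S : AddSubmonoid (ι → ℕ))
    (hS : ∀ z, z ∈ S ↔ nc z ∈ C) : S.FG := by
  let φ : (ι → ℕ) →+ (ι → ℤ) :=
    { toFun := fun z i => z i
      map_zero' := by ext; simp
      map_add' := by intro a b; ext; simp }
  have hφ : Function.Injective φ := fun a b e => by
    ext i
    have : (a i : ℤ) = b i := congrFun e i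
    exact_mod_cast this
  have := (h.inter rCone_orthant).gordan (S.map φ) fun z => by
    constructor
    · rintro ⟨y, hy, rfl⟩
      exact ⟨by convert (hS y).1 hy using 1; ext i; simp [φ], fun i => by simp [φ]⟩
    · rintro ⟨h1, h2⟩
      have h3 : ∀ i, 0 ≤ z i := fun i => by
        have : (0 : ℝ) ≤ (z i : ℝ) := h2 i
        exact_mod_cast this
      refine ⟨fun i => (z i).toNat, (hS _).2 ?_, funext fun i => by simp [φ, h3]⟩
      convert h1 using 1
      ext i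
      have : (((z i).toNat : ℤ) : ℝ) = z i := by rw [Int.toNat_of_nonneg (h3 i)]
      rw [nc_apply, zc_apply, ← this, Int.cast_natCast]
  exact AddSubmonoid.FG.map_injective φ hφ this

/-- the submonoid of the natural points of a cone -/
def RCone.natPts {C : Set (ι → ℝ)} (h : RCone C) : AddSubmonoid (ι → ℕ) where
  carrier := {z | nc z ∈ C}
  zero_mem' := by
    have : nc (0 : ι → ℕ) = 0 := by ext; simp
    simpa [this] using h.zero_mem
  add_mem' := by
    intro a b ha hb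
    have : nc (a + b) = nc a + nc b := by ext; simp
    simpa [this] using h.add_mem ha hb

theorem RCone.natPts_fg {C : Set (ι → ℝ)} (h : RCone C) : h.natPts.FG :=
  h.gordan_nat _ fun _ => Iff.rfl

/-- the submonoid of the integral points of a cone -/
def RCone.intPts {C : Set (ι → ℝ)} (h : RCone C) : AddSubmonoid (ι → ℤ) where
  carrier := {z | zc ℝ z ∈ C}
  zero_mem' := by simpa [zc_zero] using h.zero_mem
  add_mem' := by
    intro a b ha hb
    simpa [zc_add] using h.add_mem ha hb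

theorem RCone.intPts_fg {C : Set (ι → ℝ)} (h : RCone C) : h.intPts.FG :=
  h.gordan _ fun _ => Iff.rfl

end Crest.Agent.X262.Cvx
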