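import Mathlib

/-!
# X262/Cvx/Gr0 (helper62): multigraded families of subspaces and their finite generation

`M : Λ → Submodule k F` is a family of subspaces of one ring `F` (a function field); the graded ring
is `⊕_{s ∈ S} M s`.  `FG M S` says that it is a finitely generated `k`-algebra, in elementary terms.
-/

set_option autoImplicit false
set_option linter.unusedSectionVars false

open Finset

namespace Crest.Agent.X262.Cvx.Gr

variable {k F Λ : Type*} [Field k] [CommRing F] [Algebra k F] [AddCommMonoid Λ]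

/-- the family is multiplicative on `S` -/
structure Mult (M : Λ → Submodule k F) (S : AddSubmonoid Λ) : Prop where
  one : (1 : F) ∈ M 0
  mul : ∀ a ∈ S, ∀ b ∈ S, ∀ f ∈ M a, ∀ g ∈ M b, f * g ∈ M (a + b)

/-- span of the monomials of degree `s` in generators `f j` of degree `d j` -/
def Mon (k : Type*) [Field k] [Algebra k F] {ι : Type*} [Fintype ι] (d : ι → Λ) (f : ι → F) (s : Λ) :
    Submodule k F :=
  Submodule.span k {x | ∃ a : ι → ℕ, ∑ j, a j • d j = s ∧ x = ∏ j, f j ^ a j}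

/-- `⊕_{s ∈ S} M s` is generated by finitely many homogeneous elements -/
def FG (M : Λ → Submodule k F) (S : AddSubmonoid Λ) : Prop :=
  ∃ (n : ℕ) (d : Fin n → Λ) (f : Fin n → F),
    (∀ j, d j ∈ S ∧ f j ∈ M (d j)) ∧ ∀ s ∈ S, M s ≤ Mon k d f s

section Basic

variable {ι : Type*} [Fintype ι] {M : Λ → Submodule k F} {S : AddSubmonoid Λ}

theorem Mult.mono {S' : AddSubmonoid Λ} (h : Mult M S) (hS : S' ≤ S) : Mult M S' :=
  ⟨h.one, fun a ha b hb => h.mul a (hS ha) b (hS hb)⟩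

theorem Mult.comap {Λ' : Type*} [AddCommMonoid Λ'] (h : Mult M S) (φ : Λ' →+ Λ)
    {S' : AddSubmonoid Λ'} (hS : ∀ s ∈ S', φ s ∈ S) : Mult (fun s => M (φ s)) S' :=
  ⟨by simpa using h.one, fun a ha b hb f hf g hg => by
    simpa using h.mul _ (hS a ha) _ (hS b hb) f hf g hg⟩

theorem Mult.pow (h : Mult M S) {a : Λ} (ha : a ∈ S) {f : F} (hf : f ∈ M a) (n : ℕ) :
    f ^ n ∈ M (n • a) := by
  induction n with
  | zero => simpa using h.one
  | succ n ih =>
    rw [pow_succ, succ_nsmul]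
    exact h.mul _ (S.nsmul_mem ha n) _ ha _ ih _ hf

theorem Mult.prod (h : Mult M S) {α : Type*} (t : Finset α) (d : α → Λ) (f : α → F)
    (hd : ∀ j ∈ t, d j ∈ S ∧ f j ∈ M (d j)) : ∏ j ∈ t, f j ∈ M (∑ j ∈ t, d j) := by
  classical
  induction t using Finset.induction_on with
  | empty => simpa using h.one
  | insert a t ha ih =>
    rw [prod_insert ha, sum_insert ha]
    exact h.mul _ (hd a (mem_insert_self _ _)).1 _
      (S.sum_mem fun j hj => (hd j (mem_insert_of_mem hj)).1) _ (hd a (mem_insert_self _ _)).2 _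
      (ih fun j hj => hd j (mem_insert_of_mem hj))

theorem mono_mem_Mon (d : ι → Λ) (f : ι → F) (a : ι → ℕ) {s : Λ} (h : ∑ j, a j • d j = s) :
    ∏ j, f j ^ a j ∈ Mon k d f s :=
  Submodule.subset_span ⟨a, h, rfl⟩

theorem Mon_le {d : ι → Λ} {f : ι → F} {s : Λ} {N : Submodule k F}
    (h : ∀ a : ι → ℕ, ∑ j, a j • d j = s → ∏ j, f j ^ a j ∈ N) : Mon k d f s ≤ N :=
  Submodule.span_le.2 (by rintro x ⟨a, ha, rfl⟩; exact h a ha)

theorem one_mem_Mon (d : ι → Λ) (f : ι → F) : (1 : F) ∈ Mon k d f 0 := by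
  simpa using mono_mem_Mon (k := k) d f 0 (by simp)

theorem gen_mem_Mon (d : ι → Λ) (f : ι → F) (j : ι) : f j ∈ Mon k d f (d j) := by
  classical
  have h := mono_mem_Mon (k := k) d f (Pi.single j 1) (s := d j) (by
    rw [Finset.sum_eq_single j] <;> simp +contextual)
  rwa [Finset.prod_eq_single j, Pi.single_eq_same, pow_one] at h
  · intro b _ hb; simp [hb]
  · simp

theorem mul_mem_Mon {d : ι → Λ} {f : ι → F} {s t : Λ} {x y : F} (hx : x ∈ Mon k d f s)
    (hy : y ∈ Mon k d f t) : x * y ∈ Mon k d f (s + t) := by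
  have : Mon k d f s * Mon k d f t ≤ Mon k d f (s + t) := by
    unfold Mon
    rw [Submodule.span_mul_span]
    refine Submodule.span_mono ?_
    rintro _ ⟨_, ⟨a, ha, rfl⟩, _, ⟨b, hb, rfl⟩, rfl⟩
    refine ⟨a + b, ?_, ?_⟩
    · simp only [Pi.add_apply, add_smul, sum_add_distrib, ha, hb]
    · simp only [Pi.add_apply, pow_add, prod_mul_distrib]
  exact this (Submodule.mul_mem_mul hx hy)

theorem mult_Mon (d : ι → Λ) (f : ι → F) (S : AddSubmonoid Λ) : Mult (Mon k d f) S :=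
  ⟨one_mem_Mon d f, fun _ _ _ _ _ hf _ hg => mul_mem_Mon hf hg⟩

/-- monomials in elements of the family lie in the family -/
theorem Mult.Mon_le (h : Mult M S) {d : ι → Λ} {f : ι → F} (hd : ∀ j, d j ∈ S ∧ f j ∈ M (d j))
    (s : Λ) : Mon k d f s ≤ M s := by
  refine Gr.Mon_le fun a ha => ?_
  rw [← ha]
  exact h.prod _ _ _ fun j _ => ⟨S.nsmul_mem (hd j).1 _, h.pow (hd j).1 (hd j).2 _⟩

/-- if every generator of one system is a polynomial in another system -/
theorem Mon_le_Mon {κ : Type*} [Fintype κ] {d : ι → Λ} {f : ι → F} {e : κ → Λ} {g : κ → F}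
    (h : ∀ j, f j ∈ Mon k e g (d j)) (s : Λ) : Mon k d f s ≤ Mon k e g s :=
  (mult_Mon e g ⊤).Mon_le (fun j => ⟨trivial, h j⟩) s

/-- generators may be indexed by any finite type -/
theorem FG.of_fintype (d : ι → Λ) (f : ι → F) (hd : ∀ j, d j ∈ S ∧ f j ∈ M (d j))
    (h : ∀ s ∈ S, M s ≤ Mon k d f s) : FG M S := by
  let e := Fintype.equivFin ι
  refine ⟨_, d ∘ e.symm, f ∘ e.symm, fun j => hd _, fun s hs => (h s hs).trans ?_⟩
  refine Mon_le_Mon (fun j => ?_) s
  simpa using gen_mem_Mon (k := k) (d ∘ e.symm) (f ∘ e.symm) (e j)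

/-- generators given as a finite set of pairs -/
theorem FG.of_finite {T : Set (Λ × F)} (hT : T.Finite) (hd : ∀ p ∈ T, p.1 ∈ S ∧ p.2 ∈ M p.1)
    (h : ∀ N : Λ → Submodule k F, Mult N ⊤ → (∀ p ∈ T, p.2 ∈ N p.1) → ∀ s ∈ S, M s ≤ N s) :
    FG M S := by
  have := hT.fintype
  refine FG.of_fintype (ι := T) (fun p => p.1.1) (fun p => p.1.2) (fun p => hd _ p.2) ?_
  exact h _ (mult_Mon _ _ ⊤) fun p hp =>
    gen_mem_Mon (k := k) (fun p : T => p.1.1) (fun p : T => p.1.2) ⟨p, hp⟩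

theorem FG.exists_finite (h : FG M S) : ∃ T : Set (Λ × F), T.Finite ∧
    (∀ p ∈ T, p.1 ∈ S ∧ p.2 ∈ M p.1) ∧
    ∀ N : Λ → Submodule k F, Mult N ⊤ → (∀ p ∈ T, p.2 ∈ N p.1) → ∀ s ∈ S, M s ≤ N s := by
  obtain ⟨n, d, f, hd, h⟩ := h
  refine ⟨Set.range fun j => (d j, f j), Set.finite_range _, ?_, fun N hN hT s hs => ?_⟩
  · rintro _ ⟨j, rfl⟩; exact hd j
  · exact (h s hs).trans (hN.Mon_le (fun j => ⟨trivial, hT _ ⟨j, rfl⟩⟩) s)

theorem FG.congr {M' : Λ → Submodule k F} (h : FG M S) (e : ∀ s ∈ S, M s = M' s) : FG M' S := by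
  obtain ⟨n, d, f, hd, h⟩ := h
  exact ⟨n, d, f, fun j => ⟨(hd j).1, e _ (hd j).1 ▸ (hd j).2⟩, fun s hs => e s hs ▸ h s hs⟩

/-- finite cover by submonoids (outside the cover the family may vanish) -/
theorem FG.of_cover {α : Type*} [Finite α] (T : α → AddSubmonoid Λ) (hT : ∀ i, T i ≤ S)
    (hc : ∀ s ∈ S, M s = ⊥ ∨ ∃ i, s ∈ T i) (h : ∀ i, FG M (T i)) : FG M S := by
  choose G hG hd hN using fun i => (h i).exists_finite
  refine FG.of_finite (T := ⋃ i, G i) (Set.finite_iUnion hG) ?_ fun N hm hg s hs => ?_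
  · intro p hp
    obtain ⟨i, hi⟩ := Set.mem_iUnion.1 hp
    exact ⟨hT i (hd i p hi).1, (hd i p hi).2⟩
  · rcases hc s hs with h0 | ⟨i, hi⟩
    · rw [h0]; exact bot_le
    · exact hN i N hm (fun p hp => hg p (Set.mem_iUnion.2 ⟨i, hp⟩)) s hi

/-- push forward along a monoid map that is onto `S` (where the family is non-zero) -/
theorem FG.of_comap {Λ' : Type*} [AddCommMonoid Λ'] (φ : Λ' →+ Λ) {S' : AddSubmonoid Λ'}
    (h1 : ∀ s ∈ S', φ s ∈ S) (h2 : ∀ s ∈ S, M s = ⊥ ∨ ∃ s' ∈ S', φ s' = s)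
    (h : FG (fun s => M (φ s)) S') : FG M S := by
  obtain ⟨n, d, f, hd, h⟩ := h
  refine ⟨n, fun j => φ (d j), f, fun j => ⟨h1 _ (hd j).1, (hd j).2⟩, fun s hs => ?_⟩
  rcases h2 s hs with h0 | ⟨s', hs', rfl⟩
  · rw [h0]; exact bot_le
  refine (h s' hs').trans (Mon_le fun a ha => mono_mem_Mon _ _ a ?_)
  rw [← ha, map_sum]; simp

/-- pull back along a monoid map from a finitely generated monoid (CL 2.25 (1)) -/
theorem FG.comap [IsCancelAdd Λ] {Λ' : Type*} [AddCommMonoid Λ'] (hM : Mult M S) (h : FG M S)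
    (φ : Λ' →+ Λ) {S' : AddSubmonoid Λ'} (hS' : S'.FG) (h1 : ∀ s ∈ S', φ s ∈ S) :
    FG (fun s => M (φ s)) S' := by
  classical
  obtain ⟨n, d, f, hd, h⟩ := h
  obtain ⟨G, hG⟩ := hS'
  let A : (Fin n ⊕ G → ℕ) →+ Λ :=
    { toFun := fun a => ∑ j, a (.inl j) • d j
      map_zero' := by simp
      map_add' := by intro a b; simp [add_smul, sum_add_distrib] }
  let B : (Fin n ⊕ G → ℕ) →+ Λ' :=
    { toFun := fun a => ∑ g : G, a (.inr g) • (g : Λ')
      map_zero' := by simp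
      map_add' := by intro a b; simp [add_smul, sum_add_distrib] }
  have hB : ∀ a, B a ∈ S' := fun a =>
    S'.sum_mem fun g _ => S'.nsmul_mem (hG ▸ AddSubmonoid.subset_closure g.2) _
  obtain ⟨T, hT⟩ := AddSubmonoid.fg_eqLocusM A (φ.comp B)
  have hTm : ∀ t ∈ T, A t = φ (B t) := fun t ht => by
    have : t ∈ A.eqLocusM (φ.comp B) := hT ▸ AddSubmonoid.subset_closure ht
    exact this
  refine FG.of_fintype (ι := T) (fun t => B t) (fun t => ∏ j, f j ^ t.1 (.inl j)) ?_ ?_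
  · intro t
    refine ⟨hB _, ?_⟩
    exact hM.Mon_le hd _ (mono_mem_Mon _ _ _ (hTm t t.2))
  · intro s hs
    refine (h _ (h1 s hs)).trans (Mon_le fun a ha => ?_)
    have hs' : s ∈ AddSubmonoid.closure (G : Set Λ') := hG ▸ hs
    obtain ⟨b, hb⟩ : ∃ b : G → ℕ, ∑ g : G, b g • (g : Λ') = s := by
      rw [AddSubmonoid.mem_closure_finset] at hs'
      obtain ⟨b, -, hb⟩ := hs'
      exact ⟨fun g => b g, by rw [← hb, Finset.sum_coe_sort G fun g => b g • g]⟩
    have hmem : Sum.elim a b ∈ AddSubmonoid.closure (T : Set (Fin n ⊕ G → ℕ)) := by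
      rw [hT]
      change A _ = φ (B _)
      have e1 : A (Sum.elim a b) = φ s := ha
      have e2 : B (Sum.elim a b) = s := hb
      rw [e1, e2]
    have key : ∀ c ∈ AddSubmonoid.closure (T : Set (Fin n ⊕ G → ℕ)),
        ∏ j, f j ^ c (.inl j) ∈
          Mon k (fun t : T => B t) (fun t => ∏ j, f j ^ t.1 (.inl j)) (B c) := by
      intro c hc
      induction hc using AddSubmonoid.closure_induction with
      | mem c hc =>
        exact gen_mem_Mon (k := k) (fun t : T => B t) (fun t => ∏ j, f j ^ t.1 (.inl j)) ⟨c, hc⟩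
      | zero => simpa using one_mem_Mon (k := k) _ _
      | add c c' _ _ h1 h2 =>
        rw [map_add]
        simpa [pow_add, prod_mul_distrib] using mul_mem_Mon h1 h2
    have := key _ hmem
    have e2 : B (Sum.elim a b) = s := hb
    rwa [e2] at this

/-- restriction to a finitely generated submonoid -/
theorem FG.mono [IsCancelAdd Λ] (hM : Mult M S) (h : FG M S) {S' : AddSubmonoid Λ} (hS' : S'.FG)
    (h1 : S' ≤ S) : FG M S' :=
  FG.comap hM h (AddMonoidHom.id Λ) hS' h1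

end Basic

end Crest.Agent.X262.Cvx.Gr
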