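import Crest.Agent.X262.Cvx.Cone1

/-!
# X262/Cvx/Poly (helper62): rational polyhedra and polytopes in `ι → ℝ`
-/

set_option autoImplicit false
set_option linter.unusedSectionVars false

open Finset

namespace Crest.Agent.X262.Cvx

variable {ι κ : Type*} [Fintype ι] [Fintype κ]

/-- a rational polyhedron -/
def HPoly (P : Set (ι → ℝ)) : Prop :=
  ∃ (n : ℕ) (l : Fin n → (ι → ℝ) → ℝ), (∀ a, RAff (l a)) ∧ P = {x | ∀ a, 0 ≤ l a x}

/-- a rational polytope -/
def RPoly (P : Set (ι → ℝ)) : Prop :=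
  ∃ V : Set (ι → ℝ), V.Finite ∧ (∀ v ∈ V, IsRat v) ∧ P = convexHull ℝ V

theorem hPoly_of_ineq {α : Type*} [Finite α] {l : α → (ι → ℝ) → ℝ} (hl : ∀ a, RAff (l a)) :
    HPoly {x | ∀ a, 0 ≤ l a x} := by
  have := Fintype.ofFinite α
  let e := Fintype.equivFin α
  refine ⟨_, fun j => l (e.symm j), fun _ => hl _, ?_⟩
  ext x
  exact ⟨fun h j => h _, fun h a => by simpa using h (e a)⟩

theorem RCone.hPoly {C : Set (ι → ℝ)} (h : RCone C) : HPoly C := by
  obtain ⟨n, l, hl, rfl⟩ := h.exists_ineq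
  exact ⟨n, l, fun a => (hl a).rAff, rfl⟩

theorem hPoly_univ : HPoly (Set.univ : Set (ι → ℝ)) := rCone_univ.hPoly

theorem hPoly_nonneg {l : (ι → ℝ) → ℝ} (hl : RAff l) : HPoly {x | 0 ≤ l x} := by
  simpa using hPoly_of_ineq (α := Unit) (l := fun _ => l) fun _ => hl

theorem hPoly_empty : HPoly (∅ : Set (ι → ℝ)) := by
  convert hPoly_nonneg (rAff_const (ι := ι) (-1))
  ext x
  simp

theorem HPoly.iInter {α : Type*} [Finite α] {P : α → Set (ι → ℝ)} (h : ∀ a, HPoly (P a)) :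
    HPoly (⋂ a, P a) := by
  choose n l hl e using h
  convert hPoly_of_ineq (α := Σ a, Fin (n a)) (l := fun p => l p.1 p.2) fun p => hl p.1 p.2
  ext x
  simp only [Set.mem_iInter, e, Set.mem_ofPred_eq, Sigma.forall]

theorem HPoly.inter {P Q : Set (ι → ℝ)} (hP : HPoly P) (hQ : HPoly Q) : HPoly (P ∩ Q) := by
  rw [Set.inter_eq_iInter]
  exact HPoly.iInter fun b => by cases b <;> assumption

theorem hPoly_le {l m : (ι → ℝ) → ℝ} (hl : RAff l) (hm : RAff m) : HPoly {x | l x ≤ m x} := by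
  simpa [sub_nonneg] using hPoly_nonneg (hm.sub hl)

theorem hPoly_eq {l m : (ι → ℝ) → ℝ} (hl : RAff l) (hm : RAff m) : HPoly {x | l x = m x} := by
  convert (hPoly_le hl hm).inter (hPoly_le hm hl)
  ext x
  simp [le_antisymm_iff]

theorem HPoly.forall {α : Type*} [Finite α] {p : α → (ι → ℝ) → Prop}
    (h : ∀ a, HPoly {x | p a x}) : HPoly {x | ∀ a, p a x} := by
  rw [Set.ofPred_forall]
  exact HPoly.iInter h

theorem HPoly.and {p q : (ι → ℝ) → Prop} (hp : HPoly {x | p x}) (hq : HPoly {x | q x}) :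
    HPoly {x | p x ∧ q x} := hp.inter hq

theorem HPoly.preimage {P : Set (κ → ℝ)} (h : HPoly P) {f : (ι → ℝ) → κ → ℝ}
    (hf : ∀ k, RAff fun x => f x k) : HPoly (f ⁻¹' P) := by
  obtain ⟨n, l, hl, rfl⟩ := h
  exact ⟨n, fun a x => l a (f x), fun a => (hl a).comp hf, rfl⟩

theorem HPoly.isClosed {P : Set (ι → ℝ)} (h : HPoly P) : IsClosed P := by
  obtain ⟨n, l, hl, rfl⟩ := h
  rw [Set.ofPred_forall]
  exact isClosed_iInter fun a => isClosed_le continuous_const (hl a).continuous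

theorem RAff.map_seg {l : (ι → ℝ) → ℝ} (hl : RAff l) (x y : ι → ℝ) {a b : ℝ} (hab : a + b = 1) :
    l (a • x + b • y) = a * l x + b * l y := by
  simpa using hl.map_comb univ ![a, b] ![x, y] (by simpa using hab)

theorem HPoly.convex {P : Set (ι → ℝ)} (h : HPoly P) : Convex ℝ P := by
  obtain ⟨n, l, hl, rfl⟩ := h
  intro x hx y hy a b ha hb hab j
  rw [(hl j).map_seg x y hab]
  exact add_nonneg (mul_nonneg ha (hx j)) (mul_nonneg hb (hy j))

/-- the point `(t, x)` -/
def hg (t : ℝ) (x : ι → ℝ) : Option ι → ℝ := fun o => o.elim t x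

@[simp] theorem hg_none (t : ℝ) (x : ι → ℝ) : hg t x none = t := rfl

@[simp] theorem hg_some (t : ℝ) (x : ι → ℝ) (i : ι) : hg t x (some i) = x i := rfl

theorem hg_eta (y : Option ι → ℝ) : hg (y none) (fun i => y (some i)) = y := by
  ext (_ | i) <;> rfl

theorem smul_hg (c t : ℝ) (x : ι → ℝ) : c • hg t x = hg (c * t) (c • x) := by
  ext (_ | i) <;> rfl

theorem rAff_hg (o : Option ι) : RAff fun x : ι → ℝ => hg 1 x o := by
  cases o with
  | none => simpa using rAff_const (ι := ι) 1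
  | some i => exact rAff_coord i

/-- homogenisation of an affine function -/
theorem RAff.exists_hom {l : (ι → ℝ) → ℝ} (hl : RAff l) :
    ∃ L : (Option ι → ℝ) → ℝ, RLin L ∧ ∀ x, L (hg 1 x) = l x := by
  obtain ⟨c, a, ha⟩ := hl
  exact ⟨fun y => ∑ o, ((o.elim c a : ℚ) : ℝ) * y o, ⟨_, fun _ => rfl⟩, fun x => by
    simp [ha, Fintype.sum_option]⟩

/-- a polyhedron is the slice of a cone in the upper half space -/
theorem HPoly.exists_cone {P : Set (ι → ℝ)} (h : HPoly P) :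
    ∃ C : Set (Option ι → ℝ), RCone C ∧ (∀ y ∈ C, 0 ≤ y none) ∧ ∀ x, x ∈ P ↔ hg 1 x ∈ C := by
  obtain ⟨n, l, hl, rfl⟩ := h
  choose L hL e using fun a => (hl a).exists_hom
  refine ⟨{y | ∀ a, 0 ≤ L a y} ∩ {y | 0 ≤ y none},
    (rCone_of_ineq hL).inter (rCone_nonneg (rLin_coord none)), fun y hy => hy.2, fun x => ?_⟩
  simp [e]

theorem RCone.slice {C : Set (Option ι → ℝ)} (h : RCone C) : HPoly {x | hg 1 x ∈ C} :=
  h.hPoly.preimage (f := hg 1) rAff_hg

/-- projections (rational affine images) of polyhedra are polyhedra -/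
theorem HPoly.image {P : Set (ι → ℝ)} (h : HPoly P) {f : (ι → ℝ) → κ → ℝ}
    (hf : ∀ k, RAff fun x => f x k) : HPoly (f '' P) := by
  obtain ⟨C, hC, -, e⟩ := h.exists_cone
  choose L hL eL using fun k => (hf k).exists_hom
  let F : (Option ι → ℝ) → Option κ → ℝ := fun y => hg (y none) fun k => L k y
  have hF : ∀ o, RLin fun y => F y o := by
    rintro (_ | k)
    · exact rLin_coord none
    · exact hL k
  convert (hC.image hF).slice
  ext z
  constructor
  · rintro ⟨x, hx, rfl⟩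
    refine ⟨hg 1 x, (e x).1 hx, ?_⟩
    ext (_ | k)
    · rfl
    · exact eL k x
  · rintro ⟨y, hy, hz⟩
    have h1 : y none = 1 := congrFun hz none
    have h2 : y = hg 1 fun i => y (some i) := by rw [← h1, hg_eta]
    refine ⟨fun i => y (some i), (e _).2 (h2 ▸ hy), funext fun k => ?_⟩
    have := congrFun hz (some k)
    change L k y = z k at this
    rw [← this, ← eL, ← h2]

theorem mem_convexHull_range {α : Type*} [Fintype α] {E : Type*} [AddCommGroup E] [Module ℝ E]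
    (v : α → E) {x : E} : x ∈ convexHull ℝ (Set.range v) ↔
      ∃ t : α → ℝ, (∀ a, 0 ≤ t a) ∧ ∑ a, t a = 1 ∧ x = ∑ a, t a • v a := by
  classical
  constructor
  · intro hx
    refine convexHull_min (t := {x | ∃ t : α → ℝ, (∀ a, 0 ≤ t a) ∧ ∑ a, t a = 1 ∧
      x = ∑ a, t a • v a}) ?_ ?_ hx
    · rintro _ ⟨a, rfl⟩
      refine ⟨Pi.single a 1, fun b => ?_, by simp, ?_⟩
      · rw [Pi.single_apply]; split_ifs <;> simp
      · rw [sum_eq_single a] <;> simp +contextual
    · rintro _ ⟨t, ht, h1, rfl⟩ _ ⟨u, hu, h2, rfl⟩ a b ha hb hab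
      refine ⟨a • t + b • u, fun g => add_nonneg (mul_nonneg ha (ht g)) (mul_nonneg hb (hu g)),
        ?_, ?_⟩
      · simp [sum_add_distrib, ← mul_sum, h1, h2, hab]
      · simp [add_smul, sum_add_distrib, smul_sum, smul_smul]
  · rintro ⟨t, ht, h1, rfl⟩
    exact (convex_convexHull ℝ _).sum_mem (fun a _ => ht a) h1
      fun a _ => subset_convexHull ℝ _ ⟨a, rfl⟩

theorem rPoly_range {α : Type*} [Finite α] {v : α → ι → ℝ} (hv : ∀ a, IsRat (v a)) :
    RPoly (convexHull ℝ (Set.range v)) :=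
  ⟨_, Set.finite_range v, by rintro _ ⟨a, rfl⟩; exact hv a, rfl⟩

theorem RPoly.exists_range {P : Set (ι → ℝ)} (h : RPoly P) :
    ∃ (n : ℕ) (v : Fin n → ι → ℝ), (∀ a, IsRat (v a)) ∧ P = convexHull ℝ (Set.range v) := by
  obtain ⟨V, hV, hr, rfl⟩ := h
  obtain ⟨n, v, -, rfl⟩ := hV.fin_param
  exact ⟨n, v, fun a => hr _ ⟨a, rfl⟩, rfl⟩

theorem RPoly.isCompact {P : Set (ι → ℝ)} (h : RPoly P) : IsCompact P := by
  obtain ⟨V, hV, -, rfl⟩ := h
  exact hV.isCompact_convexHull ℝ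

theorem RPoly.convex {P : Set (ι → ℝ)} (h : RPoly P) : Convex ℝ P := by
  obtain ⟨V, -, -, rfl⟩ := h
  exact convex_convexHull ℝ V

theorem rPoly_empty : RPoly (∅ : Set (ι → ℝ)) := ⟨∅, Set.finite_empty, by simp, by simp⟩

theorem isRat_hg {x : ι → ℝ} (hx : IsRat x) : IsRat (hg 1 x) := fun o => (rAff_hg o).isRat hx

/-- a polytope is a polyhedron -/
theorem RPoly.hPoly {P : Set (ι → ℝ)} (h : RPoly P) : HPoly P := by
  obtain ⟨n, v, hv, rfl⟩ := h.exists_range
  convert (rCone_of_gen (v := fun a => hg 1 (v a)) fun a => isRat_hg (hv a)).slice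
  ext x
  rw [mem_convexHull_range]
  refine exists_congr fun t => and_congr_right fun _ => ?_
  constructor
  · rintro ⟨h1, rfl⟩
    ext (_ | i) <;> simp [h1]
  · intro h
    exact ⟨by simpa using (congrFun h none).symm, funext fun i => by
      simpa using congrFun h (some i)⟩

/-- structure of polyhedra: polytope plus cone -/
theorem HPoly.exists_decomp {P : Set (ι → ℝ)} (h : HPoly P) :
    ∃ (Q C : Set (ι → ℝ)), RPoly Q ∧ RCone C ∧ Q ⊆ P ∧ (∀ x ∈ P, ∀ c ∈ C, x + c ∈ P) ∧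
      ∀ x ∈ P, ∃ q ∈ Q, ∃ c ∈ C, x = q + c := by
  classical
  obtain ⟨C, hC, h0, e⟩ := h.exists_cone
  obtain ⟨n, g, hg'⟩ := hC.exists_gen
  have hgC : ∀ a, zc ℝ (g a) ∈ C := fun a => by
    rw [hg']
    refine ⟨Pi.single a 1, fun b => ?_, ?_⟩
    · rw [Pi.single_apply]; split_ifs <;> simp
    · rw [sum_eq_single a] <;> simp +contextual
  have hg0 : ∀ a, (0 : ℝ) ≤ g a none := fun a => h0 _ (hgC a)
  let v : {a // 0 < g a none} → ι → ℝ := fun a i => (g a (some i) : ℝ) / g a none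
  have hvP : ∀ a, v a ∈ P := fun a => by
    have hp : (0 : ℝ) < g a none := by exact_mod_cast a.2
    rw [e]
    convert hC.smul_mem (hgC a) (inv_nonneg.2 hp.le) using 1
    ext (_ | i)
    · simp [hp.ne']
    · simp [v, div_eq_inv_mul]
  refine ⟨convexHull ℝ (Set.range v), {c | hg 0 c ∈ C}, rPoly_range fun a i =>
    ⟨(g a (some i) : ℚ) / g a none, by simp [v]⟩, ?_, ?_, ?_, ?_⟩
  · refine hC.preimage (f := hg 0) ?_
    rintro (_ | i)
    · exact rLin_zero
    · exact rLin_coord i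
  · exact convexHull_min (by rintro _ ⟨a, rfl⟩; exact hvP a) h.convex
  · intro x hx c hc
    rw [e] at hx ⊢
    convert hC.add_mem hx hc using 1
    ext (_ | i) <;> simp
  · intro x hx
    rw [e, hg'] at hx
    obtain ⟨t, ht, hx⟩ := hx
    have hsplit : ∀ φ : Fin n → ℝ, ∑ a, φ a = ∑ a : {a // 0 < g a none}, φ a +
        ∑ a : {a // ¬ 0 < g a none}, φ a := fun φ => (Fintype.sum_subtype_add_sum_subtype _ φ).symm
    have hz : ∀ a : {a // ¬ 0 < g a none}, (g a none : ℝ) = 0 := fun a => by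
      have h1 : g a none ≤ 0 := not_lt.1 a.2
      exact le_antisymm (by exact_mod_cast h1) (hg0 a)
    refine ⟨∑ a : {a // 0 < g a none}, (t a * g a none) • v a, ?_,
      fun i => ∑ a : {a // ¬ 0 < g a none}, t a * g a (some i), ?_, ?_⟩
    · rw [mem_convexHull_range]
      refine ⟨_, fun a => mul_nonneg (ht a) (hg0 a), ?_, rfl⟩
      have := congrFun hx none
      simp only [hg_none, Finset.sum_apply, Pi.smul_apply, zc_apply, smul_eq_mul] at this
      rw [hsplit] at this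
      simpa [hz] using this.symm
    · change hg 0 _ ∈ C
      convert hC.sum_mem (univ : Finset {a // ¬ 0 < g a none})
        fun a _ => hC.smul_mem (hgC a) (ht a) using 1
      ext (_ | i) <;> simp [hz]
    · ext i
      have := congrFun hx (some i)
      simp only [hg_some, Finset.sum_apply, Pi.smul_apply, zc_apply, smul_eq_mul] at this
      rw [this, hsplit]
      simp only [Pi.add_apply, Finset.sum_apply, Pi.smul_apply, smul_eq_mul, v, add_left_inj]
      refine sum_congr rfl fun a _ => ?_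
      have hp : (g a none : ℝ) ≠ 0 := by exact_mod_cast a.2.ne'
      field_simp

/-- a bounded polyhedron is a polytope -/
theorem HPoly.rPoly {P : Set (ι → ℝ)} (h : HPoly P) (hb : Bornology.IsBounded P) : RPoly P := by
  obtain ⟨Q, C, hQ, hC, hQP, hadd, hdec⟩ := h.exists_decomp
  suffices P = Q from this ▸ hQ
  refine Set.Subset.antisymm (fun x hx => ?_) hQP
  obtain ⟨q, hq, c, hc, rfl⟩ := hdec x hx
  obtain ⟨R, hR⟩ := hb.exists_norm_le
  by_cases h0 : c = 0
  · simpa [h0] using hq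
  exfalso
  have hc0 : 0 < ‖c‖ := norm_pos_iff.2 h0
  have hq0 := hR q (hQP hq)
  have hR0 : 0 ≤ R := (norm_nonneg _).trans hq0
  have ht : 0 ≤ (2 * R + 1) / ‖c‖ := by positivity
  have h1 := hR _ (hadd q (hQP hq) _ (hC.smul_mem hc ht))
  have h2 : ‖((2 * R + 1) / ‖c‖) • c‖ = 2 * R + 1 := by
    rw [norm_smul, Real.norm_of_nonneg ht, div_mul_cancel₀ _ hc0.ne']
  have h3 := norm_sub_le (q + ((2 * R + 1) / ‖c‖) • c) q
  rw [add_sub_cancel_left, h2] at h3
  linarith

theorem RPoly.inter {P Q : Set (ι → ℝ)} (hP : RPoly P) (hQ : HPoly Q) : RPoly (P ∩ Q) :=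
  (hP.hPoly.inter hQ).rPoly (hP.isCompact.isBounded.subset Set.inter_subset_left)

theorem HPoly.rPoly_of_subset {P Q : Set (ι → ℝ)} (hP : HPoly P) (hQ : IsCompact Q) (h : P ⊆ Q) :
    RPoly P := hP.rPoly (hQ.isBounded.subset h)

theorem RPoly.image {P : Set (ι → ℝ)} (h : RPoly P) {f : (ι → ℝ) → κ → ℝ}
    (hf : ∀ k, RAff fun x => f x k) : RPoly (f '' P) :=
  (h.hPoly.image hf).rPoly
    (h.isCompact.image (continuous_pi fun k => (hf k).continuous)).isBounded

/-- the convex hull of a finite union of polytopes -/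
theorem RPoly.hull_iUnion {α : Type*} [Finite α] {P : α → Set (ι → ℝ)} (h : ∀ a, RPoly (P a)) :
    RPoly (convexHull ℝ (⋃ a, P a)) := by
  choose V hV hr e using h
  refine ⟨⋃ a, V a, Set.finite_iUnion hV, fun v hv => ?_, Set.Subset.antisymm ?_ ?_⟩
  · obtain ⟨a, ha⟩ := Set.mem_iUnion.1 hv
    exact hr a v ha
  · refine convexHull_min (Set.iUnion_subset fun a => ?_) (convex_convexHull ℝ _)
    rw [e a]
    exact convexHull_mono (Set.subset_iUnion V a)
  · exact convexHull_mono (Set.iUnion_mono fun a => e a ▸ subset_convexHull ℝ _)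

/-- the cone over a polytope -/
theorem RPoly.cone {P : Set (ι → ℝ)} (h : RPoly P) :
    RCone {y | y = 0 ∨ ∃ t : ℝ, 0 < t ∧ ∃ x ∈ P, y = t • x} := by
  obtain ⟨n, v, hv, rfl⟩ := h.exists_range
  convert rCone_of_gen hv using 1
  ext y
  constructor
  · rintro (rfl | ⟨t, ht, x, hx, rfl⟩)
    · exact ⟨0, by simp, by simp⟩
    · obtain ⟨u, hu, -, rfl⟩ := (mem_convexHull_range v).1 hx
      exact ⟨t • u, fun a => mul_nonneg ht.le (hu a), by simp [smul_sum, smul_smul]⟩
  · rintro ⟨t, ht, rfl⟩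
    rcases (sum_nonneg fun a (_ : a ∈ univ) => ht a).eq_or_lt with h0 | h0
    · left
      have := (sum_eq_zero_iff_of_nonneg fun a _ => ht a).1 h0.symm
      exact sum_eq_zero fun a ha => by rw [this a ha, zero_smul]
    · right
      refine ⟨_, h0, ∑ a, (t a / ∑ b, t b) • v a, (mem_convexHull_range v).2
        ⟨_, fun a => div_nonneg (ht a) h0.le, ?_, rfl⟩, ?_⟩
      · rw [← sum_div, div_self h0.ne']
      · rw [smul_sum]
        exact sum_congr rfl fun a _ => by rw [smul_smul, mul_div_cancel₀ _ h0.ne']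

/-- rational points are dense in a rational cone -/
theorem RCone.exists_rat_near {C : Set (ι → ℝ)} (h : RCone C) {x : ι → ℝ} (hx : x ∈ C) {ε : ℝ}
    (hε : 0 < ε) : ∃ y ∈ C, IsRat y ∧ ‖y - x‖ < ε := by
  obtain ⟨n, g, rfl⟩ := h.exists_gen
  obtain ⟨t, ht, rfl⟩ := hx
  let φ : (Fin n → ℝ) → ι → ℝ := fun u => ∑ a, u a • zc ℝ (g a)
  have hφ : Continuous φ := by fun_prop
  obtain ⟨δ, hδ, hφ'⟩ := Metric.continuous_iff.1 hφ t ε hε
  choose q h1 h2 using fun a => exists_rat_btwn (lt_add_of_pos_right (t a) (half_pos hδ))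
  refine ⟨φ (qc q), ⟨qc q, fun a => (ht a).trans (h1 a).le, rfl⟩,
    IsRat.sum _ fun a _ => (isRat_zc _).smul (q a), ?_⟩
  rw [← dist_eq_norm]
  refine hφ' _ ((dist_pi_lt_iff hδ).2 fun a => ?_)
  rw [Real.dist_eq, abs_lt, qc_apply]
  constructor <;> linarith [h1 a, h2 a]

/-- rational points are dense in a rational polyhedron -/
theorem HPoly.exists_rat_near {P : Set (ι → ℝ)} (h : HPoly P) {x : ι → ℝ} (hx : x ∈ P) {ε : ℝ}
    (hε : 0 < ε) : ∃ y ∈ P, IsRat y ∧ ‖y - x‖ < ε := by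
  obtain ⟨C, hC, -, e⟩ := h.exists_cone
  let φ : (Option ι → ℝ) → ι → ℝ := fun y => (y none)⁻¹ • fun i => y (some i)
  have hφ : ContinuousAt φ (hg 1 x) := by
    have h1 : ContinuousAt (fun y : Option ι → ℝ => (y none)⁻¹) (hg 1 x) :=
      ContinuousAt.inv₀ (f := fun y : Option ι → ℝ => y none) (continuous_apply none).continuousAt
        (by simp)
    have h2 : ContinuousAt (fun (y : Option ι → ℝ) i => y (some i)) (hg 1 x) :=
      (continuous_pi fun i => continuous_apply (some i)).continuousAt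
    exact h1.smul h2
  obtain ⟨δ, hδ, hφ'⟩ := Metric.continuousAt_iff.1 hφ ε hε
  obtain ⟨y, hy, hr, hd⟩ := hC.exists_rat_near ((e x).1 hx) (lt_min hδ one_pos)
  have h1 : 0 < y none := by
    have := (norm_le_pi_norm (y - hg 1 x) none).trans_lt (hd.trans_le (min_le_right _ _))
    rw [Real.norm_eq_abs, abs_lt] at this
    simpa using this.1
  refine ⟨φ y, ?_, ?_, ?_⟩
  · rw [e]
    convert hC.smul_mem hy (inv_nonneg.2 h1.le) using 1
    ext (_ | i)
    · simp [h1.ne']
    · simp [φ]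
  · intro i
    obtain ⟨p, hp⟩ := hr none
    obtain ⟨q, hq⟩ := hr (some i)
    exact ⟨p⁻¹ * q, by simp [φ, hp, hq]⟩
  · have := hφ' (x := y) (by rw [dist_eq_norm]; exact hd.trans_le (min_le_left _ _))
    have e2 : φ (hg 1 x) = x := by ext i; simp [φ]
    rwa [e2, dist_eq_norm] at this

end Crest.Agent.X262.Cvx
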